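import Vale.Agent.P352W.Kr.Tk
import Vale.Agent.P352X.Api3d

/-!
# P352W KER: the symbols of the free field and of its canonical stress tensor
-/

set_option autoImplicit false

open MeasureTheory
open scoped ComplexConjugate SchwartzMap NNReal
open Complex (I exp)

namespace Vale.Agent.P352W.Kr

open Vale.Agent.P352.GF Vale.Agent.P352W.Fk Vale.Agent.P352W.Cn
open Vale.Agent.P352.H496 (IsNull)

noncomputable section

theorem ft_eq : ft = P352X.ft := rfl

variable {f g : Fn} {s : ℝ} {L : Ix → V}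

theorem test_pd (hf : IsTest f) (m : Ix) : IsTest (pd m f) :=
  P352X.pd_test hf m ▸ P352X.test_fd hf _

theorem ft_lin (hf : IsTest f) (hg : IsTest g) (c : ℂ) (p : V) :
    ft (fun x => f x + c * g x) p = ft f p + c * ft g p := by
  obtain ⟨g, rfl⟩ := hg
  rw [ft_eq, P352X.ft_add hf (g := fun x => c * ev g x) ⟨c • g, rfl⟩, P352X.ft_mul]

theorem ft_bar (f : Fn) (p : V) : ft (bar f) p = conj (ft f (-p)) := P352X.ft_bar f p

theorem cont_ft (hf : IsTest f) : Continuous (ft f) := P352X.cont_ft hf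

theorem rr_ps (p : V) : 0 < rr p := by unfold rr; positivity

/-- decay of Fourier transforms, with a continuous seminorm -/
theorem hb_ft (N : ℕ) : ∃ P : Seminorm ℂ Sch, Continuous P ∧ ∀ g, Hb N (P g) (ft (ev g)) := by
  obtain ⟨m, C, hC, h⟩ := P352X.ft_decay N
  let S : Seminorm ℂ Sch := (Finset.Iic (m, m)).sup fun k => SchwartzMap.seminorm ℂ k.1 k.2
  have hS : Continuous S := Seminorm.continuous_finsetSup fun k _ =>
    (schwartz_withSeminorms ℂ V ℂ).continuous_seminorm k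
  let c : ℝ≥0 := ⟨2 ^ N * C, by positivity⟩
  refine ⟨c • S, hS.const_smul c, fun g p => ?_⟩
  have h1 : rr p ^ N ≤ 2 ^ N * (1 + ‖p‖) ^ N := by
    rw [← mul_pow]
    exact pow_le_pow_left₀ (rr_ps p).le (by unfold rr; linarith [norm_nonneg p]) N
  calc ‖ft (ev g) p‖ * rr p ^ N ≤ ‖ft (ev g) p‖ * (2 ^ N * (1 + ‖p‖) ^ N) := by gcongr
    _ = 2 ^ N * ((1 + ‖p‖) ^ N * ‖P352X.ft (ev g) p‖) := by rw [ft_eq]; ring
    _ ≤ 2 ^ N * (C * P352X.sn m g) := mul_le_mul_of_nonneg_left (h g p) (by positivity)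
    _ = _ := (mul_assoc _ _ _).symm

theorem hs_ft (hf : IsTest f) : Hs (ft f) := by
  refine ⟨(cont_ft hf).measurable, fun N => ?_⟩
  obtain ⟨g, rfl⟩ := hf
  obtain ⟨P, -, h⟩ := hb_ft N
  exact ⟨_, h g⟩

/-- the constant of the symbol -/
def cT : ℝ := -(2 * (2 * Real.pi) ^ 3)⁻¹

theorem cT_ne : cT ≠ 0 := by
  have := Real.pi_pos
  exact neg_ne_zero.2 (by positivity)

theorem abs_cT : |cT| * 6 ≤ 1 := by
  have h := Real.two_le_pi
  have h1 : (6 : ℝ) ≤ 2 * (2 * Real.pi) ^ 3 := by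
    have : (2 : ℝ) ^ 3 ≤ (2 * Real.pi) ^ 3 := pow_le_pow_left₀ (by norm_num) (by linarith) 3
    linarith
  rw [cT, abs_neg, abs_of_pos (by positivity), inv_mul_le_iff₀ (by positivity), mul_one]
  exact h1

variable (m n : Ix) (p q : V)

theorem kT_eq (f : Fn) : kT m n f p q = (cT : ℂ) * (tk m n p q : ℝ) * ft f (p + q) := by
  rw [kT, Complex.ofReal_mul]; rfl

theorem norm_kT (f : Fn) : ‖kT m n f p q‖ ≤ ‖p‖ * ‖q‖ * ‖ft f (p + q)‖ := by
  rw [kT_eq, norm_mul, norm_mul, Complex.norm_real, Complex.norm_real, Real.norm_eq_abs,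
    Real.norm_eq_abs]
  refine mul_le_mul_of_nonneg_right ?_ (norm_nonneg _)
  calc |cT| * |tk m n p q| ≤ |cT| * (6 * (‖p‖ * ‖q‖)) := by gcongr; exact abs_tk m n p q
    _ = |cT| * 6 * (‖p‖ * ‖q‖) := by ring
    _ ≤ _ := mul_le_of_le_one_left (by positivity) abs_cT

theorem kb_of {N : ℕ} {c : ℝ} (h : Hb N c (ft f)) : Kb N c (kT m n f) := fun p q => by
  have h0 : 0 ≤ c := le_trans (mul_nonneg (norm_nonneg _) (pow_pos (rr_ps 0) N).le) (h 0)
  have h1 : ‖p‖ * ‖q‖ ≤ (rr p * rr q) ^ 2 := by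
    have a : ‖p‖ * ‖q‖ ≤ rr p * rr q := by
      unfold rr
      gcongr <;> linarith
    have b : 1 ≤ rr p * rr q := by
      unfold rr
      nlinarith [norm_nonneg p, norm_nonneg q, mul_nonneg (norm_nonneg p) (norm_nonneg q)]
    nlinarith
  have := (rr_ps (p + q)).le
  calc ‖kT m n f p q‖ * rr (p + q) ^ N ≤ ‖p‖ * ‖q‖ * ‖ft f (p + q)‖ * rr (p + q) ^ N := by
        gcongr; exact norm_kT m n p q f
    _ = ‖ft f (p + q)‖ * rr (p + q) ^ N * (‖p‖ * ‖q‖) := by ring
    _ ≤ c * (rr p * rr q) ^ 2 := mul_le_mul (h _) h1 (by positivity) h0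

/-- the tame bound, with a continuous seminorm -/
theorem kb_kT (N : ℕ) :
    ∃ P : Seminorm ℂ Sch, Continuous P ∧ ∀ m n g, Kb N (P g) (kT m n (ev g)) :=
  let ⟨P, hP, h⟩ := hb_ft N
  ⟨P, hP, fun m n g => kb_of m n (h g)⟩

theorem cont_kT (hf : IsTest f) : Continuous fun z : V × V => kT m n f z.1 z.2 := by
  simp only [kT_eq]
  exact (continuous_const.mul (Complex.continuous_ofReal.comp (cont_tk m n))).mul
    ((cont_ft hf).comp (continuous_fst.add continuous_snd))

theorem ks_kT (hf : IsTest f) : Ks (kT m n f) :=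
  ⟨(cont_kT m n hf).measurable, fun N => let ⟨c, h⟩ := (hs_ft hf).2 N; ⟨c, kb_of m n h⟩⟩

theorem kT_symm (f : Fn) : kT m n f = kT n m f := by
  funext p q; rw [kT_eq, kT_eq, tk_symm]

theorem kT_swap (f : Fn) : kT m n f p q = kT m n f q p := by
  rw [kT_eq, kT_eq, tk_swap, add_comm]

theorem kT_lin (hf : IsTest f) (hg : IsTest g) (c : ℂ) :
    kT m n (fun x => f x + c * g x) p q = kT m n f p q + c * kT m n g p q := by
  simp only [kT_eq, ft_lin hf hg]; ring

/-- hermiticity -/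
theorem kT_bar (f : Fn) : kT m n (bar f) p q = conj (kT m n f (-p) (-q)) := by
  rw [kT_eq, kT_eq, ft_bar, tk_neg, map_mul, map_mul, Complex.conj_ofReal, Complex.conj_ofReal,
    neg_add]

theorem kT_bar' (f : Fn) : (fun p q => conj (kT m n f (-p) (-q))) = kT m n (bar f) := by
  funext p q; rw [kT_bar]

theorem ft_bar' (f : Fn) : (fun p => conj (ft f (-p))) = ft (bar f) := by
  funext p; rw [ft_bar]

/-- conservation -/
theorem kT_cons (hf : IsTest f) (hp : mdot p p = 0) (hq : mdot q q = 0) :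
    ∑ k, kT k n (pd k f) p q = 0 := by
  have h := congrArg (fun x : ℝ => (x : ℂ)) (tk_cons n p q hp hq)
  simp only [Complex.ofReal_sum, Complex.ofReal_zero] at h
  calc ∑ k, kT k n (pd k f) p q =
        -(I * cT * ft f (p + q)) * ∑ k, ((eta k * (p + q) k * tk k n p q : ℝ) : ℂ) := by
        rw [Finset.mul_sum]
        refine Finset.sum_congr rfl fun k _ => ?_
        rw [kT_eq, ft_eq, P352X.ft_pd hf]
        push_cast
        ring
    _ = 0 := by rw [h, mul_zero]

/-- the trace -/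
theorem kT_tr (f : Fn) :
    ∑ k, (eta k : ℂ) * kT k k f p q = -2 * cT * (mdot p q : ℝ) * ft f (p + q) := by
  have h := congrArg (fun x : ℝ => (x : ℂ)) (tk_tr p q)
  simp only [Complex.ofReal_sum] at h
  calc ∑ k, (eta k : ℂ) * kT k k f p q =
        cT * ft f (p + q) * ∑ k, ((eta k * tk k k p q : ℝ) : ℂ) := by
        rw [Finset.mul_sum]
        refine Finset.sum_congr rfl fun k _ => ?_
        rw [kT_eq]
        push_cast
        ring
    _ = _ := by rw [h]; push_cast; ring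

theorem md_add (x y z : V) : mdot (x + y) z = mdot x z + mdot y z := by
  simp only [md, Pi.add_apply]; ring

/-- covariance of the symbol of the field -/
theorem ft_sim (hs : 0 < s) (hL : IsLor L) (f : Fn) (a : V) :
    ft (fun x => f (sim s L a x)) (s • p) =
      ((s ^ 4)⁻¹ : ℝ) * exp (-(I * mdot (sim 1 L 0 p) a)) * ft f (sim 1 L 0 p) :=
  P352X.ft_sim hs hL f a p

/-- covariance of the symbol of the stress tensor -/
theorem kT_sim (hs : 0 < s) (hL : IsLor L) (f : Fn) (a : V) :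
    ∑ k, ∑ l, (L k m * L l n : ℂ) * kT k l (fun x => f (sim s L a x)) (s • p) (s • q) =
      ((s ^ 2)⁻¹ : ℝ) * (exp (-(I * mdot (sim 1 L 0 p) a)) * exp (-(I * mdot (sim 1 L 0 q) a))) *
        kT m n f (sim 1 L 0 p) (sim 1 L 0 q) := by
  have h := congrArg (fun x : ℝ => (x : ℂ)) (tk_lor m n p q hL)
  simp only [Complex.ofReal_sum, Complex.ofReal_mul] at h
  have hs' : (s : ℂ) ≠ 0 := by exact_mod_cast hs.ne'
  simp only [kT_eq, ← smul_add, ft_sim (p + q) hs hL, tk_smul, sim_add, md_add, h,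
    Finset.mul_sum, Finset.sum_mul]
  refine Finset.sum_congr rfl fun k _ => Finset.sum_congr rfl fun l _ => ?_
  rw [← Complex.exp_add]
  push_cast
  rw [show -(I * (mdot (sim 1 L 0 p) a + mdot (sim 1 L 0 q) a : ℂ)) =
    -(I * mdot (sim 1 L 0 p) a) + -(I * mdot (sim 1 L 0 q) a) by ring]
  field_simp

theorem md_neg (x : V) : mdot (-x) (-x) = mdot x x := by
  simp only [md, Pi.neg_apply]; ring

theorem dv_nil {F : V → Wf} (h : ∀ p, F p = 0) : dv F = 0 := by
  funext σ; simp [dv, h]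

theorem it_nil {F : V → Wf} (h : ∀ q, mdot q q = 0 → F q = 0) : it F = 0 := by
  funext σ
  refine integral_eq_zero_of_ae ?_
  filter_upwards [om_ae] with q hq
  rw [h q hq.2]; rfl

theorem ci_mul {z : ℂ} (h : mdot p p = 0 → z = 0) : ci p * z = 0 := by
  unfold ci
  split_ifs with hp
  · rw [h hp.1, mul_zero]
  · exact zero_mul _

/-- A symbol which vanishes on the light cone gives the operator zero. -/
theorem ph_null {h : V → ℂ} (e : ∀ p, mdot p p = 0 → h p = 0) (ψ : Wf) : ph h ψ = 0 := by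
  unfold ph
  rw [dv_nil fun p => by rw [ci_mul p (e p), zero_smul],
    it_nil fun q hq => by rw [e _ ((md_neg q).trans hq), zero_smul], add_zero]

/-- A symbol which vanishes on the light cone gives the operator zero. -/
theorem qq_null {κ : V → V → ℂ} (e : ∀ p q, mdot p p = 0 → mdot q q = 0 → κ p q = 0) (ψ : Wf) :
    qq κ ψ = 0 := by
  unfold qq
  rw [dv_nil fun p => dv_nil fun p' => by
      rw [mul_assoc, ci_mul p fun hp => ci_mul p' (e p p' hp), zero_smul],
    dv_nil fun p => it_nil fun q hq => by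
      rw [ci_mul p fun hp => by
        rw [e _ _ hp ((md_neg q).trans hq), e _ _ ((md_neg q).trans hq) hp, add_zero], zero_smul],
    it_nil fun q hq => it_nil fun q' hq' => by
      rw [e _ _ ((md_neg q).trans hq) ((md_neg q').trans hq'), zero_smul], add_zero, add_zero]

/-- conservation, on wave functions -/
theorem qq_cons (hf : IsTest f) (ψ : Wf) : qq (fun p q => ∑ k, kT k n (pd k f) p q) ψ = 0 :=
  qq_null (fun p q hp hq => kT_cons n p q hf hp hq) ψ

/-- The field `symm` of `Free`. -/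
theorem symm (f : Fn) (v : D) (_ : IsTest f) : Tm m n f v = Tm n m f v := by
  unfold Tm; rw [kT_symm]

end

end Vale.Agent.P352W.Kr
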