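import Vale.Agent.P352W.Kr.Ker
import Vale.Agent.P352W.Fk.Bas
import Vale.Agent.P352W.Fk.Lin
import Vale.Agent.P352W.Fk.Mec
import Vale.Agent.P352W.Fk.Ae

/-!
# P352W KER: conservation on the domain, and the trace of the canonical tensor is not zero
-/

set_option autoImplicit false

open MeasureTheory Filter Topology
open scoped ComplexConjugate SchwartzMap ContDiff

namespace Vale.Agent.P352W.Kr

open Vale.Agent.P352.GF Vale.Agent.P352W.Fk Vale.Agent.P352W.Cn
open Vale.Agent.P352.H496 (IsNull)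

noncomputable section

namespace Nz

variable {ψ : Wf}

theorem wd_nice (h : Wd ψ) : Nice ψ := by
  induction h with
  | vc => exact nice_vc
  | zero => exact nice_zero
  | add _ _ a b => exact a.add b
  | smul c _ a => exact a.smul c
  | ph hf _ a => exact nice_ph (hs_ft hf) a
  | qq m n hf _ a => exact nice_qq (ks_kT m n hf) a

theorem wd_rep (v : D) : Wd (rep v) := by
  unfold rep
  split_ifs with h
  · exact h.choose_spec.1
  · exact Wd.zero

theorem mk_val (h : Wd ψ) : (Fk.mk ψ).1 = toL ψ := by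
  unfold Fk.mk
  rw [dif_pos h]

theorem toL_sum {F : Ix → Wf} (h : ∀ m, Nice (F m)) : toL (∑ m, F m) = ∑ m, toL (F m) := by
  simp only [Fin.sum_univ_four]
  rw [toL_add (((h 0).add (h 1)).add (h 2)) (h 3), toL_add ((h 0).add (h 1)) (h 2),
    toL_add (h 0) (h 1)]

theorem sum_qq {κ : Ix → V → V → ℂ} (h : ∀ m, Ks (κ m)) (hψ : Nice ψ) :
    qq (fun p q => ∑ m, κ m p q) ψ = ∑ m, qq (κ m) ψ := by
  simp only [Fin.sum_univ_four]
  rw [add_qq (((h 0).add (h 1)).add (h 2)) (h 3) hψ, add_qq ((h 0).add (h 1)) (h 2) hψ,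
    add_qq (h 0) (h 1) hψ]

theorem dv_cons (F : V → Wf) (q : V) (σ : Multiset V) :
    dv F (q ::ₘ σ) = F q σ + dv (fun p τ => F p (q ::ₘ τ)) σ := by
  rw [dv_eq, dv_eq]; exact Ms.dl_cons F q σ

theorem vc_cons (q : V) (σ : Multiset V) : vc (q ::ₘ σ) = 0 := if_neg (Multiset.cons_ne_zero)

theorem vc_zero : vc 0 = 1 := if_pos rfl

/-- the two particle wave function of a quadratic field applied to the vacuum -/
theorem qq_vc (κ : V → V → ℂ) (p q : V) :
    qq κ vc (p ::ₘ q ::ₘ 0) = ci p * ci q * (κ p q + κ q p) := by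
  simp only [qq, Pi.add_apply, dv_cons, dv_zero, it, Pi.smul_apply, smul_eq_mul, vc_cons, vc_zero,
    mul_zero, integral_zero, add_zero, mul_one, zero_add]
  ring

theorem ms_two (x : Fin 2 → V) : ms x = x 0 ::ₘ x 1 ::ₘ 0 := by
  simp [ms, Fin.sum_univ_two]

/-- open sets which meet the cone have positive measure -/
theorem om_pos {U : Set V} (hU : IsOpen U) {k : E3} (hk : cn k ∈ U) : Om U ≠ 0 := by
  unfold Om wm
  rw [Measure.map_apply measurable_cn hU.measurableSet]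
  intro h
  have h1 : (volume : Measure E3) ≪
      (volume : Measure E3).withDensity fun k => ENNReal.ofReal (2 * ‖k‖)⁻¹ := by
    refine withDensity_absolutelyContinuous' measurable_dens.aemeasurable ?_
    filter_upwards [ae_ne_zero] with k hk
    have : 0 < ‖k‖ := norm_pos_iff.2 hk
    exact (ENNReal.ofReal_pos.2 (by positivity)).ne'
  exact ((hU.preimage continuous_cn).measure_pos volume ⟨k, hk⟩).ne' (h1 h)

/-- a test function whose Fourier transform is one on a ball -/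
theorem ex_one : ∃ f, IsTest f ∧ ∀ p : V, ‖p‖ ≤ 2 → ft f p = 1 := by
  let b : ContDiffBump (0 : V) := ⟨2, 3, by norm_num, by norm_num⟩
  have hs : HasCompactSupport fun x => ((b x : ℝ) : ℂ) :=
    b.hasCompactSupport.comp_left (g := fun t : ℝ => (t : ℂ)) Complex.ofReal_zero
  have hd : ContDiff ℝ ∞ fun x => ((b x : ℝ) : ℂ) :=
    Complex.ofRealCLM.contDiff.comp b.contDiff
  obtain ⟨f, hf, e⟩ := P352X.exists_ft (g := fun x => ((b x : ℝ) : ℂ)) ⟨hs.toSchwartzMap hd, rfl⟩
  refine ⟨f, hf, fun p hp => ?_⟩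
  rw [ft_eq, e]
  simp only
  rw [b.one_of_mem_closedBall (by simpa using hp), Complex.ofReal_one]

/-- a half of the unit ball -/
def hb (e : ℝ) : Set V := {p | 0 < e * p 1} ∩ Metric.ball 0 1

theorem hb_pos {e : ℝ} (he : e * e = 1) : Om (hb e) ≠ 0 := by
  refine om_pos ((isOpen_lt continuous_const (by fun_prop)).inter Metric.isOpen_ball)
    (k := EuclideanSpace.single 0 (e / 2)) ⟨?_, ?_⟩
  · change 0 < e * (EuclideanSpace.single (0 : Fin 3) (e / 2) : E3) 0
    simp only [PiLp.single_apply, if_true]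
    linarith
  · rw [mem_ball_zero_iff, norm_cn, PiLp.norm_single, Real.norm_eq_abs, abs_lt]
    constructor <;> nlinarith

/-- two null vectors in opposite half balls, with a given generic property -/
theorem ex_pair {P : (Fin 2 → V) → Prop} (h : ∀ᵐ x ∂(Measure.pi fun _ : Fin 2 => Om), P x) :
    ∃ x : Fin 2 → V, P x ∧ x 0 ∈ hb 1 ∧ x 1 ∈ hb (-1) := by
  have h1 : (Measure.pi fun _ : Fin 2 => Om) (Set.univ.pi ![hb 1, hb (-1)]) ≠ 0 := by
    rw [Measure.pi_pi, Fin.prod_univ_two]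
    exact mul_ne_zero (hb_pos (by norm_num)) (hb_pos (by norm_num))
  obtain ⟨x, hx, hP⟩ := ((frequently_ae_mem_iff.2 h1).and_eventually h).exists
  exact ⟨x, hP, hx 0 trivial, hx 1 trivial⟩

end Nz

open Nz

/-- The field `conserved` of `Free`. -/
theorem conserved (n : Ix) (f : Fn) (v : D) (hf : IsTest f) : ∑ m, Tm m n (pd m f) v = 0 := by
  have hv := wd_nice (wd_rep v)
  apply Subtype.ext
  rw [AddSubmonoidClass.coe_finsetSum]
  simp only [Tm, op, fun m => mk_val (Wd.qq m n (test_pd hf m) (wd_rep v))]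
  rw [← toL_sum fun m => nice_qq (ks_kT m n (test_pd hf m)) hv,
    ← sum_qq (fun m => ks_kT m n (test_pd hf m)) hv, qq_cons n hf, toL_zero]
  rfl

/-- The trace of the canonical tensor, applied to the vacuum, is not zero. -/
theorem nz0 : ∃ f, IsTest f ∧ toL (∑ m, (eta m : ℂ) • qq (kT m m f) vc) ≠ 0 := by
  obtain ⟨f, hf, e⟩ := ex_one
  refine ⟨f, hf, fun h => ?_⟩
  have hN : ∀ m, Nice ((eta m : ℂ) • qq (kT m m f) vc) := fun m =>
    (nice_qq (ks_kT m m hf) nice_vc).smul _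
  have hS : Nice (∑ m, (eta m : ℂ) • qq (kT m m f) vc) := by
    rw [Fin.sum_univ_four]
    exact (((hN 0).add (hN 1)).add (hN 2)).add (hN 3)
  have h1 := toL_ae hS.memLp
  rw [h] at h1
  have h2 := (ae_lam _).1 (((Lp.coeFn_zero ℂ 2 Lam).symm.trans h1).and ae_null) 2
  obtain ⟨x, ⟨hx, hn⟩, ⟨a1, a2⟩, b1, b2⟩ := ex_pair h2
  have n0 := hn 0
  have n1 := hn 1
  simp only at n0 n1
  have c0 : ci (x 0) = 1 := if_pos ⟨n0.2, n0.1⟩
  have c1 : ci (x 1) = 1 := if_pos ⟨n1.2, n1.1⟩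
  have hf1 : ft f (x 0 + x 1) = 1 := e _ ((norm_add_le _ _).trans (by
    linarith [mem_ball_zero_iff.1 a2, mem_ball_zero_iff.1 b2]))
  have h3 : ∑ m, (eta m : ℂ) * (2 * kT m m f (x 0) (x 1)) = 0 := by
    have : (0 : ℂ) = (∑ m, (eta m : ℂ) • qq (kT m m f) vc) (ms x) := hx
    rw [this, ms_two, Finset.sum_apply]
    refine Finset.sum_congr rfl fun m _ => ?_
    rw [Pi.smul_apply, smul_eq_mul, qq_vc, c0, c1, kT_swap m m (x 1)]
    ring
  have h4 : (2 : ℂ) * (-2 * cT * (mdot (x 0) (x 1) : ℝ) * ft f (x 0 + x 1)) = 0 := by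
    rw [← kT_tr, Finset.mul_sum, ← h3]
    exact Finset.sum_congr rfl fun m _ => by ring
  have hc : (cT : ℂ) ≠ 0 := by exact_mod_cast cT_ne
  have h5 : mdot (x 0) (x 1) = 0 := by simpa [hf1, hc] using h4
  have h6 := md_null_eq _ _ n0.2 n1.2 h5 1
  simp only [Set.mem_ofPred_eq] at a1 b1
  nlinarith [mul_pos n0.1 b1, mul_pos n1.1 a1]

/-- The field `nz` of `Free`, from the action of the stress tensor on the vacuum. -/
theorem nz_of (h : ∀ m n f, IsTest f → Tm m n f Ω = Fk.mk (qq (kT m n f) vc)) :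
    ∃ f, IsTest f ∧ tr Tm f Ω ≠ 0 := by
  obtain ⟨f, hf, e⟩ := nz0
  refine ⟨f, hf, fun h0 => e ?_⟩
  have h1 := congrArg Subtype.val h0
  unfold tr at h1
  rw [AddSubmonoidClass.coe_finsetSum] at h1
  simp only [h _ _ f hf, SetLike.val_smul, fun m => mk_val (Wd.qq m m hf Wd.vc)] at h1
  rw [toL_sum fun m => (nice_qq (ks_kT m m hf) nice_vc).smul _]
  simp only [fun m => toL_smul (eta m : ℂ) (nice_qq (ks_kT m m hf) nice_vc)]
  exact h1

/-- The field `nz` of `Free`. -/
theorem nz : ∃ f, IsTest f ∧ tr Tm f Ω ≠ 0 := nz_of fun m n _ hf => Ae.tm_mk m n hf Wd.vc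

end

end Vale.Agent.P352W.Kr
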