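import Vale.Agent.P352W.Fk.Def

/-!
# P352W KER: the polynomial part of the kernel of the canonical stress tensor
-/

set_option autoImplicit false

open scoped ComplexConjugate

namespace Vale.Agent.P352W.Kr

open Vale.Agent.P352.GF Vale.Agent.P352W.Fk

noncomputable section

theorem md (x y : V) : mdot x y = x 0 * y 0 - x 1 * y 1 - x 2 * y 2 - x 3 * y 3 := by
  simp [mdot, eta, o, Fin.sum_univ_four]
  ring

theorem md_comm (x y : V) : mdot x y = mdot y x := by rw [md, md]; ring

theorem eta_eta (m : Ix) : eta m * eta m = 1 := by unfold eta; split_ifs <;> norm_num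

theorem bas_symm (m n : Ix) : bas m (eta m) n = bas n (eta n) m := by
  unfold bas
  by_cases h : n = m
  · subst h; rfl
  · rw [if_neg h, if_neg (Ne.symm h)]

theorem abs_bas (m n : Ix) : |bas m (eta m) n| ≤ 1 := by
  unfold bas eta
  split_ifs <;> norm_num

variable (m n : Ix) (p q : V)

theorem tk_symm : tk m n p q = tk n m p q := by
  unfold tk; rw [bas_symm]; ring

theorem tk_swap : tk m n p q = tk m n q p := by
  unfold tk; rw [md_comm]; ring

theorem tk_neg_r : tk m n p (-q) = -tk m n p q := by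
  simp only [tk, md, Pi.neg_apply]; ring

theorem tk_neg_l : tk m n (-p) q = -tk m n p q := by
  simp only [tk, md, Pi.neg_apply]; ring

theorem tk_neg : tk m n (-p) (-q) = tk m n p q := by rw [tk_neg_l, tk_neg_r, neg_neg]

theorem tk_smul (s t : ℝ) : tk m n (s • p) (t • q) = s * t * tk m n p q := by
  simp only [tk, md, Pi.smul_apply, smul_eq_mul]; ring

/-- the divergence of the kernel -/
theorem tk_div : ∑ k, eta k * (p + q) k * tk k n p q = mdot p p * q n + mdot q q * p n := by
  fin_cases n <;> simp [tk, md, bas, eta, o, Fin.sum_univ_four] <;> ring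

theorem tk_cons (hp : mdot p p = 0) (hq : mdot q q = 0) :
    ∑ k, eta k * (p + q) k * tk k n p q = 0 := by
  rw [tk_div, hp, hq]; ring

/-- the trace of the kernel -/
theorem tk_tr : ∑ k, eta k * tk k k p q = -2 * mdot p q := by
  simp [tk, md, bas, eta, o, Fin.sum_univ_four]; ring

theorem abs_md : |mdot p q| ≤ 4 * (‖p‖ * ‖q‖) := by
  have h : ∀ k, |p k * q k| ≤ ‖p‖ * ‖q‖ := fun k => by
    rw [abs_mul]
    exact mul_le_mul (norm_le_pi_norm p k) (norm_le_pi_norm q k) (abs_nonneg _) (norm_nonneg _)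
  rw [md, abs_le]
  have h0 := abs_le.1 (h 0)
  have h1 := abs_le.1 (h 1)
  have h2 := abs_le.1 (h 2)
  have h3 := abs_le.1 (h 3)
  constructor <;> linarith [h0.1, h0.2, h1.1, h1.2, h2.1, h2.2, h3.1, h3.2]

theorem abs_tk : |tk m n p q| ≤ 6 * (‖p‖ * ‖q‖) := by
  have h : ∀ k l, |p k * q l| ≤ ‖p‖ * ‖q‖ := fun k l => by
    rw [abs_mul]
    exact mul_le_mul (norm_le_pi_norm p k) (norm_le_pi_norm q l) (abs_nonneg _) (norm_nonneg _)
  have h3 : |bas m (eta m) n * mdot p q| ≤ 4 * (‖p‖ * ‖q‖) := by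
    rw [abs_mul]
    exact (mul_le_of_le_one_left (abs_nonneg _) (abs_bas m n)).trans (abs_md p q)
  have h0 := abs_le.1 (h m n)
  have h1 := abs_le.1 (h n m)
  have h2 := abs_le.1 h3
  unfold tk
  rw [abs_le]
  constructor <;> linarith [h0.1, h0.2, h1.1, h1.2, h2.1, h2.2]

theorem cont_md : Continuous fun z : V × V => mdot z.1 z.2 := by
  unfold mdot; fun_prop

theorem cont_tk : Continuous fun z : V × V => tk m n z.1 z.2 := by
  have := cont_md
  unfold tk; fun_prop

variable {L : Ix → V}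

/-- the columns of a Lorentz matrix -/
theorem lor_col (hL : IsLor L) : ∑ k, eta k * L k m * L k n = bas m (eta m) n := by
  have h1 : Matrix.of L * (Matrix.of fun a b => eta a * eta b * L b a) = 1 := by
    ext a b
    have := hL.1 a b
    simp only [mdot] at this
    simp only [Matrix.mul_apply, Matrix.of_apply, Matrix.one_apply]
    rw [show ∑ x, L a x * (eta x * eta b * L b x) = eta b * ∑ x, eta x * L a x * L b x by
      rw [Finset.mul_sum]; exact Finset.sum_congr rfl fun x _ => by ring, this, bas]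
    by_cases h : a = b
    · subst h; simp [eta_eta]
    · simp [h, Ne.symm h]
  have h2 : ((Matrix.of fun a b => eta a * eta b * L b a) * Matrix.of L) m n =
      (1 : Matrix Ix Ix ℝ) m n := by rw [mul_eq_one_comm.1 h1]
  simp only [Matrix.mul_apply, Matrix.of_apply, Matrix.one_apply] at h2
  have h3 : eta m * ∑ k, eta k * L k m * L k n = if m = n then 1 else 0 := by
    rw [← h2, Finset.mul_sum]
    exact Finset.sum_congr rfl fun x _ => by ring
  have h4 : ∑ k, eta k * L k m * L k n = eta m * if m = n then 1 else 0 := by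
    rw [← h3, ← mul_assoc, eta_eta, one_mul]
  rw [h4, bas]
  by_cases h : m = n
  · subst h; simp
  · simp [h, Ne.symm h]

theorem sim_apply (x : V) : sim 1 L 0 x n = ∑ k, x k * L k n := by simp [sim]

theorem sim_add (x y : V) : sim 1 L 0 (x + y) = sim 1 L 0 x + sim 1 L 0 y := by
  funext k; simp [sim, add_mul, Finset.sum_add_distrib]

theorem sim_neg (x : V) : sim 1 L 0 (-x) = -sim 1 L 0 x := by
  funext k; simp [sim]

theorem md_sim (hL : IsLor L) : mdot (sim 1 L 0 p) (sim 1 L 0 q) = mdot p q := by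
  have h := hL.1
  have e : mdot (sim 1 L 0 p) (sim 1 L 0 q) = ∑ k, ∑ l, p k * q l * mdot (L k) (L l) := by
    simp only [md, sim_apply, Fin.sum_univ_four]; ring
  rw [e]
  simp only [h]
  simp [md, bas, eta, o, Fin.sum_univ_four]
  ring

/-- Lorentz covariance of the kernel -/
theorem tk_lor (hL : IsLor L) :
    tk m n (sim 1 L 0 p) (sim 1 L 0 q) = ∑ k, ∑ l, L k m * L l n * tk k l p q := by
  have h := lor_col m n hL
  unfold tk
  rw [md_sim p q hL, ← h]
  simp [sim_apply, bas, eta, o, Fin.sum_univ_four]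
  ring

/-- Future directed null vectors have a nonnegative product, which vanishes only if they are
parallel. -/
theorem md_null_eq (hp : mdot p p = 0) (hq : mdot q q = 0) (h : mdot p q = 0) (k : Ix) :
    p o * q k = q o * p k := by
  rw [md] at hp hq h
  have e : (p 0 * q 1 - q 0 * p 1) ^ 2 + (p 0 * q 2 - q 0 * p 2) ^ 2 +
      (p 0 * q 3 - q 0 * p 3) ^ 2 = 0 := by
    linear_combination (-(p 0) ^ 2) * hq - (q 0) ^ 2 * hp + 2 * p 0 * q 0 * h
  have e1 : p 0 * q 1 - q 0 * p 1 = 0 := by
    nlinarith [sq_nonneg (p 0 * q 1 - q 0 * p 1), sq_nonneg (p 0 * q 2 - q 0 * p 2),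
      sq_nonneg (p 0 * q 3 - q 0 * p 3)]
  have e2 : p 0 * q 2 - q 0 * p 2 = 0 := by
    nlinarith [sq_nonneg (p 0 * q 1 - q 0 * p 1), sq_nonneg (p 0 * q 2 - q 0 * p 2),
      sq_nonneg (p 0 * q 3 - q 0 * p 3)]
  have e3 : p 0 * q 3 - q 0 * p 3 = 0 := by
    nlinarith [sq_nonneg (p 0 * q 1 - q 0 * p 1), sq_nonneg (p 0 * q 2 - q 0 * p 2),
      sq_nonneg (p 0 * q 3 - q 0 * p 3)]
  fin_cases k
  · exact mul_comm _ _
  · simpa [o, sub_eq_zero] using e1
  · simpa [o, sub_eq_zero] using e2
  · simpa [o, sub_eq_zero] using e3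

end

end Vale.Agent.P352W.Kr
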